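import Vale.Agent.P058.H987.SixB

/-!
Ramsey sets are spherical (Erdős et al. 1973), from the profile; hence a set with at most six
points is Ramsey if and only if it is spherical.
-/

set_option autoImplicit false

open Finset

namespace Vale.Agent.P058

/-- Weighted sums over the values of a balanced profile do not depend on the point. -/
theorem profile_sum_eq {n : ℕ} {k : ℕ} {m : Fin k → ℤ} {a : Fin k → Fin n → ℝ}
    {b : Fin k → ℝ} {v w : E n}
    (h : ∑ j, Finsupp.single (affv (a j) (b j) v) (m j) =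
        ∑ j, Finsupp.single (affv (a j) (b j) w) (m j)) (g : ℝ → ℝ) :
    ∑ j, (m j : ℝ) * g (affv (a j) (b j) v) = ∑ j, (m j : ℝ) * g (affv (a j) (b j) w) := by
  let φ : (ℝ →₀ ℤ) →+ ℝ := Finsupp.liftAddHom fun t =>
    (AddMonoidHom.mulRight (g t)).comp (Int.castAddHom ℝ)
  have hφ : ∀ t (c : ℤ), φ (Finsupp.single t c) = (c : ℝ) * g t := by
    intro t c
    simp [φ]
  have h1 := congrArg φ h
  rw [map_sum, map_sum] at h1
  simpa only [hφ] using h1

/-- Ramsey sets are spherical. -/
theorem isSpherical_of_isRamsey {n : ℕ} {A : Set (E n)} (hA : A.Finite) (hne : A.Nonempty)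
    (hR : IsRamsey A) : IsSpherical A := by
  obtain ⟨k, m, a, b, -, h⟩ := (isRamsey_iff_profile hA hne).1 hR
  obtain ⟨p, hp⟩ := hne
  set y : Fin k → E n → ℝ := fun j v => affv (a j) (b j) v with hy
  set S : ℝ := ∑ j, (m j : ℝ) * y j p ^ 2 with hS
  have h1 : ∀ v ∈ A, ∑ j, (m j : ℝ) * y j v ^ 2 = S := fun v hv =>
    profile_sum_eq (h v hv p hp).1 fun t => t ^ 2
  have h2 : ∀ v ∈ A, dist v p ^ 2 = 2 * S - 2 * ∑ j, (m j : ℝ) * (y j p * y j v) := by
    intro v hv
    rw [← (h v hv p hp).2]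
    have e : ∀ j, (m j : ℝ) * (affv (a j) (b j) v - affv (a j) (b j) p) ^ 2 =
        (m j : ℝ) * y j v ^ 2 + (m j : ℝ) * y j p ^ 2 - 2 * ((m j : ℝ) * (y j p * y j v)) := by
      intro j
      simp only [hy]
      ring
    simp only [e]
    rw [Finset.sum_sub_distrib, Finset.sum_add_distrib, h1 v hv, ← hS, ← Finset.mul_sum]
    ring
  -- the vector of the affine functional
  let c : E n := WithLp.toLp 2 fun i => ∑ j, (m j : ℝ) * (y j p * a j i)
  have h3 : ∀ v : E n, ∑ j, (m j : ℝ) * (y j p * y j v) =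
      inner ℝ c v + ∑ j, (m j : ℝ) * (y j p * b j) := by
    intro v
    have e1 : (inner ℝ c v : ℝ) = ∑ i, (∑ j, (m j : ℝ) * (y j p * a j i)) * v i := by
      rw [PiLp.inner_apply]
      refine Finset.sum_congr rfl fun i _ => ?_
      simp [c, mul_comm]
    rw [e1]
    simp only [Finset.sum_mul]
    rw [Finset.sum_comm, ← Finset.sum_add_distrib]
    refine Finset.sum_congr rfl fun j _ => ?_
    simp only [hy, affv]
    rw [mul_add, mul_add, Finset.mul_sum, Finset.mul_sum]
    congr 1
    refine Finset.sum_congr rfl fun i _ => ?_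
    ring
  -- the centre
  refine ⟨p - c, Real.sqrt (inner ℝ c c - 2 * inner ℝ c p + (2 * S -
    2 * ∑ j, (m j : ℝ) * (y j p * b j))), fun v hv => ?_⟩
  have h4 : dist v (p - c) ^ 2 = inner ℝ c c + 2 * inner ℝ c v - 2 * inner ℝ c p +
      dist v p ^ 2 := by
    have e1 : v - (p - c) = (v - p) + c := by abel
    rw [dist_eq_norm, dist_eq_norm, ← real_inner_self_eq_norm_sq, ← real_inner_self_eq_norm_sq,
      e1, inner_add_left, inner_add_right, inner_add_right, real_inner_comm c (v - p)]
    have e2 : (inner ℝ c (v - p) : ℝ) = inner ℝ c v - inner ℝ c p := inner_sub_right _ _ _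
    rw [e2]
    ring
  rw [← Real.sqrt_sq (dist_nonneg (x := v) (y := p - c)), h4, h2 v hv, h3]
  congr 1
  ring

/-- **A nonempty set with at most six points is Ramsey if and only if it is spherical.** -/
theorem isRamsey_iff_isSpherical_of_card_le_six {n : ℕ} {A : Set (E n)} (hA : A.Finite)
    (hne : A.Nonempty) (hc : A.ncard ≤ 6) : IsRamsey A ↔ IsSpherical A :=
  ⟨isSpherical_of_isRamsey hA hne, fun ⟨z, ρ, hS⟩ =>
    (isRamsey_iff_signed hA hne).2 (signed_of_card_le_six hA hc z ρ hS)⟩

end Vale.Agent.P058
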