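import Vale.Agent.P058.H987.Meas

/-! P058: for almost every choice of points, evaluation at at most `card J` points is onto on the
span of `J` functions which are unisolvent somewhere. -/

open MeasureTheory

namespace Vale.Agent.P058

theorem generic_surj {J : Type} [Fintype J] {m n : ℕ} (F : J → MvPolynomial (Fin m) ℝ)
    (p : J → Fin m → ℝ)
    (hp : ∀ c : J → ℝ, (∀ i, ∑ j, c j * MvPolynomial.eval (p i) (F j) = 0) → c = 0)
    (S : Finset (Fin n)) (hS : S.card ≤ Fintype.card J) :
    ∀ᵐ s : Fin n × Fin m → ℝ, ∀ g : Fin n → ℝ, ∃ c : J → ℝ,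
      ∀ i ∈ S, ∑ j, c j * MvPolynomial.eval (fun k => s (i, k)) (F j) = g i := by
  classical
  obtain ⟨e⟩ : Nonempty (S ↪ J) := by
    refine Function.Embedding.nonempty_of_card_le ?_
    simpa using hS
  -- the matrix of values at the unisolvent points
  let M : Matrix J J ℝ := Matrix.of fun i j => MvPolynomial.eval (p i) (F j)
  have hM : Function.Injective M.mulVec := by
    intro c c' h
    have h0 : M.mulVec (c - c') = 0 := by rw [Matrix.mulVec_sub, h, sub_self]
    have h1 := hp (c - c') fun i => by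
      have h2 := congrFun h0 i
      rw [Matrix.mulVec, dotProduct] at h2
      simpa only [M, Matrix.of_apply, Pi.zero_apply, mul_comm] using h2
    exact sub_eq_zero.1 h1
  have hMu : IsUnit M := Matrix.mulVec_injective_iff_isUnit.1 hM
  obtain ⟨N, hN⟩ : ∃ N : Matrix J J ℝ, M * N = 1 := by
    obtain ⟨u, hu⟩ := hMu
    exact ⟨(u⁻¹ : (Matrix J J ℝ)ˣ).val, by rw [← hu]; exact u.mul_inv⟩
  -- the dual functions
  let F' : J → MvPolynomial (Fin m) ℝ := fun i' => ∑ j, MvPolynomial.C (N j i') * F j
  have hF' : ∀ x i', MvPolynomial.eval x (F' i') = ∑ j, N j i' * MvPolynomial.eval x (F j) := by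
    intro x i'
    simp only [F', map_sum, map_mul, MvPolynomial.eval_C]
  have hF'1 : ∀ i i', MvPolynomial.eval (p i) (F' i') = (1 : Matrix J J ℝ) i i' := by
    intro i i'
    rw [hF', ← hN, Matrix.mul_apply]
    refine Finset.sum_congr rfl fun j _ => ?_
    rw [mul_comm]
    rfl
  let P : Matrix S S (MvPolynomial (Fin n × Fin m) ℝ) := Matrix.of fun i i' =>
    MvPolynomial.rename (fun k => ((i : Fin n), k)) (F' (e i'))
  have hP : ∀ s i i', MvPolynomial.eval s (P i i') =
      MvPolynomial.eval (fun k => s ((i : Fin n), k)) (F' (e i')) := by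
    intro s i i'
    simp only [P, Matrix.of_apply, MvPolynomial.eval_rename]
    rfl
  have hdet : ∀ s, MvPolynomial.eval s P.det = (Matrix.of fun i i' : S =>
      MvPolynomial.eval (fun k => s ((i : Fin n), k)) (F' (e i'))).det := by
    intro s
    rw [RingHom.map_det]
    congr 1
    ext i i'
    exact hP s i i'
  have hD : P.det ≠ 0 := by
    intro h0
    let s0 : Fin n × Fin m → ℝ := fun q => if h : q.1 ∈ S then p (e ⟨q.1, h⟩) q.2 else 0
    have h1 := hdet s0
    rw [h0, map_zero] at h1
    have h2 : (Matrix.of fun i i' : S =>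
        MvPolynomial.eval (fun k => s0 ((i : Fin n), k)) (F' (e i'))) = 1 := by
      ext i i'
      have h3 : (fun k => s0 ((i : Fin n), k)) = p (e i) := by
        funext k
        simp only [s0, i.2, dif_pos]
      rw [Matrix.of_apply, h3, hF'1, Matrix.one_apply, Matrix.one_apply]
      simp only [e.injective.eq_iff]
    rw [h2, Matrix.det_one] at h1
    exact zero_ne_one h1
  filter_upwards [ae_eval_ne_zero hD] with s hs g
  rw [hdet s] at hs
  set A : Matrix S S ℝ := Matrix.of fun i i' : S =>
    MvPolynomial.eval (fun k => s ((i : Fin n), k)) (F' (e i')) with hA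
  have hAu : IsUnit A := (Matrix.isUnit_iff_isUnit_det A).2 (isUnit_iff_ne_zero.2 hs)
  obtain ⟨c', hc'⟩ := Matrix.mulVec_surjective_iff_isUnit.2 hAu (fun i : S => g i)
  refine ⟨fun j => ∑ i' : S, N j (e i') * c' i', fun i hi => ?_⟩
  have h1 := congrFun hc' ⟨i, hi⟩
  rw [Matrix.mulVec, dotProduct] at h1
  rw [← h1]
  simp only [hA, Matrix.of_apply, hF', Finset.sum_mul]
  rw [Finset.sum_comm]
  refine Finset.sum_congr rfl fun i' _ => Finset.sum_congr rfl fun j _ => ?_
  ring

end Vale.Agent.P058
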