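import Vale.Agent.P058.H987.Six
import Mathlib.MeasureTheory.Measure.Lebesgue.Basic
import Mathlib.Algebra.MvPolynomial.Cardinal
import Mathlib.Topology.Algebra.MvPolynomial
import Mathlib.RingTheory.AlgebraicIndependent.Basic

/-!
Nonzero real polynomials vanish on null sets; almost every real vector is algebraically
independent over `ℚ`.
-/

set_option autoImplicit false

open MeasureTheory Filter

namespace Vale.Agent.P058

/-- The zero set of a nonzero real polynomial is a null set. -/
theorem volume_zeros_fin {n : ℕ} {f : MvPolynomial (Fin n) ℝ} (hf : f ≠ 0) :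
    volume {z : Fin n → ℝ | MvPolynomial.eval z f = 0} = 0 := by
  induction n with
  | zero =>
    have h1 : {z : Fin 0 → ℝ | MvPolynomial.eval z f = 0} = ∅ := by
      ext z
      simp only [Set.mem_ofPred_eq, Set.mem_empty_iff_false, iff_false]
      intro h
      apply hf
      rw [MvPolynomial.eq_C_of_isEmpty f] at h ⊢
      rw [MvPolynomial.eval_C] at h
      rw [h, map_zero]
    rw [h1, measure_empty]
  | succ n ih =>
    set S : Set (Fin (n + 1) → ℝ) := {z | MvPolynomial.eval z f = 0} with hS
    have hSm : MeasurableSet S :=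
      (isClosed_eq (MvPolynomial.continuous_eval f) continuous_const).measurableSet
    set g := MvPolynomial.finSuccEquiv ℝ n f with hg
    have hg0 : g ≠ 0 := by
      intro h
      exact hf ((MvPolynomial.finSuccEquiv ℝ n).injective (by rw [← hg, h, map_zero]))
    have hmp := (volume_preserving_piFinSuccAbove (fun _ : Fin (n + 1) => ℝ) 0).symm
    rw [← hmp.measure_preimage hSm.nullMeasurableSet]
    have hTm : MeasurableSet
        ((MeasurableEquiv.piFinSuccAbove (fun _ : Fin (n + 1) => ℝ) 0).symm ⁻¹' S) :=
      (MeasurableEquiv.measurable _) hSm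
    rw [Measure.volume_eq_prod, Measure.prod_apply_symm hTm]
    have hae : ∀ᵐ y : Fin n → ℝ ∂volume, MvPolynomial.eval y g.leadingCoeff ≠ 0 := by
      have h2 := ih (Polynomial.leadingCoeff_ne_zero.2 hg0)
      rw [ae_iff]
      simpa using h2
    rw [lintegral_congr_ae (g := fun _ => 0), lintegral_zero]
    filter_upwards [hae] with y hy
    have hfin : ((fun x : ℝ => (x, y)) ⁻¹'
        ((MeasurableEquiv.piFinSuccAbove (fun _ : Fin (n + 1) => ℝ) 0).symm ⁻¹' S)).Finite := by
      have h3 : g.map (MvPolynomial.eval y) ≠ 0 := by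
        intro h
        apply hy
        have h4 := congrArg (fun p => Polynomial.coeff p g.natDegree) h
        simpa [Polynomial.coeff_map] using h4
      refine (Polynomial.rootSet_finite (g.map (MvPolynomial.eval y)) ℝ).subset ?_
      intro x hx
      rw [Polynomial.mem_rootSet]
      refine ⟨h3, ?_⟩
      have h5 : MvPolynomial.eval ((0 : Fin (n + 1)).insertNth x y : Fin (n + 1) → ℝ) f = 0 := hx
      rw [Fin.insertNth_zero', MvPolynomial.eval_eq_eval_mv_eval'] at h5
      simpa using h5
    exact hfin.measure_zero _

/-- **(M1)** A nonzero real polynomial does not vanish at almost every point. -/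
theorem ae_eval_ne_zero {ι : Type*} [Fintype ι] {p : MvPolynomial ι ℝ} (hp : p ≠ 0) :
    ∀ᵐ s : ι → ℝ, MvPolynomial.eval s p ≠ 0 := by
  classical
  let e := Fintype.equivFin ι
  have hq : MvPolynomial.rename e p ≠ 0 := by
    intro h
    exact hp (MvPolynomial.rename_injective e e.injective (by rw [h, map_zero]))
  have h1 : ∀ᵐ s : Fin (Fintype.card ι) → ℝ,
      MvPolynomial.eval s (MvPolynomial.rename e p) ≠ 0 := by
    rw [ae_iff]
    simpa using volume_zeros_fin hq
  have hmp : MeasurePreserving (MeasurableEquiv.piCongrLeft (fun _ : Fin (Fintype.card ι) => ℝ) e)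
      volume volume := volume_measurePreserving_piCongrLeft (fun _ => ℝ) e
  have h2 := hmp.quasiMeasurePreserving.ae h1
  filter_upwards [h2] with s hs
  rw [MvPolynomial.eval_rename] at hs
  convert hs using 3
  funext i
  simp [MeasurableEquiv.piCongrLeft, Equiv.piCongrLeft, Equiv.piCongrLeft']

/-- **(M2)** Almost every real vector is algebraically independent over `ℚ`. -/
theorem ae_algebraicIndependent (ι : Type*) [Fintype ι] :
    ∀ᵐ s : ι → ℝ, AlgebraicIndependent ℚ s := by
  have hc : Countable (MvPolynomial ι ℚ) := by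
    rw [← Cardinal.mk_le_aleph0_iff]
    refine MvPolynomial.cardinalMk_le_max_lift.trans ?_
    simp
  have h1 : ∀ p : MvPolynomial ι ℚ, ∀ᵐ s : ι → ℝ, p ≠ 0 → MvPolynomial.aeval s p ≠ 0 := by
    intro p
    by_cases hp : p = 0
    · exact Eventually.of_forall fun s h => absurd hp h
    · have hp' : MvPolynomial.map (algebraMap ℚ ℝ) p ≠ 0 := by
        intro h
        exact hp (MvPolynomial.map_injective _ (algebraMap ℚ ℝ).injective (by rw [h, map_zero]))
      filter_upwards [ae_eval_ne_zero hp'] with s hs _
      rw [MvPolynomial.eval_map] at hs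
      rwa [MvPolynomial.aeval_def]
  filter_upwards [ae_all_iff.2 h1] with s hs
  rw [algebraicIndependent_iff]
  intro p hp
  by_contra h0
  exact hs p h0 hp

end Vale.Agent.P058
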