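import Vale.Agent.P058.Bdl.B1

/-!
Every spherical set with at most six points, in any dimension, has a signed balanced profile.
-/

set_option autoImplicit false

open Finset

namespace Vale.Agent.P058

/-- The primal form of the quadratic certificate. -/
theorem signed_of_pairs {n : ℕ} {A : Set (E n)} (hA : A.Finite) {κ : Type*} [Fintype κ]
    (y y' : κ → E n × ℝ)
    (hbal : ∀ v ∈ A, ∀ B : ℝ →ₗ[ℚ] ℝ →ₗ[ℚ] ℝ, ∑ k, B (rowv (y k) v) (rowv (y' k) v) = 0)
    (hD : ∀ p ∈ A, ∀ q ∈ A, dist p q ^ 2 =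
      ∑ k, (rowv (y k) p - rowv (y k) q) * (rowv (y' k) p - rowv (y' k) q)) :
    HasSignedProfile A := by
  classical
  have : Fintype A := hA.fintype
  by_contra hno
  obtain ⟨B, L, hL, hBL⟩ := exists_quad_cert hno
  apply hL
  have h1 : (L (fun p : A × A => dist (p.1 : E n) p.2 ^ 2) : ℝ) = 0 := by
    have e1 : (fun p : A × A => dist (p.1 : E n) p.2 ^ 2) = ∑ k : κ, fun p : A × A =>
        (rowv (y k) (p.1 : E n) - rowv (y k) (p.2 : E n)) *
        (rowv (y' k) (p.1 : E n) - rowv (y' k) (p.2 : E n)) := by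
      funext p
      rw [Finset.sum_apply, hD p.1 p.1.2 p.2 p.2.2]
    have e2 : ∑ k, (∑ v : A, B v (rowv (y k) v) (rowv (y' k) v) +
        (L (fun p : A × A => (rowv (y k) p.1 - rowv (y k) p.2) *
          (rowv (y' k) p.1 - rowv (y' k) p.2)) : ℝ)) = 0 :=
      Finset.sum_eq_zero fun k _ => hBL (y k) (y' k)
    rw [Finset.sum_add_distrib, Finset.sum_comm,
      Finset.sum_eq_zero fun (v : A) _ => hbal v v.2 (B v), zero_add] at e2
    rw [e1, map_sum, Rat.cast_sum]
    exact e2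
  exact_mod_cast h1

/-- An affine functional vanishing on a flat and not at a point outside. -/
lemma exists_row_of_notMem {n : ℕ} (p v : E n) (D : Submodule ℝ (E n)) (h : v - p ∉ D) :
    ∃ u : E n × ℝ, rowv u v ≠ 0 ∧ ∀ x, x - p ∈ D → rowv u x = 0 := by
  have : D.HasOrthogonalProjection := inferInstance
  set w : E n := (v - p) - D.starProjection (v - p) with hw
  have hwD : w ∈ Dᗮ := D.sub_starProjection_mem_orthogonal (v - p)
  have hw0 : w ≠ 0 := by
    intro h0
    apply h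
    rw [hw, sub_eq_zero] at h0
    rw [h0]
    exact Submodule.starProjection_apply_mem D _
  refine ⟨(w, -inner ℝ w p), ?_, fun x hx => ?_⟩
  · have e : rowv (w, -inner ℝ w p) v = inner ℝ w w := by
      have h1 : (inner ℝ w (v - p) : ℝ) = inner ℝ w w := by
        have h2 : v - p = w + D.starProjection (v - p) := by rw [hw]; abel
        rw [h2, inner_add_right]
        have h3 : (inner ℝ w (D.starProjection (v - p)) : ℝ) = 0 :=
          Submodule.inner_left_of_mem_orthogonal (Submodule.starProjection_apply_mem D _) hwD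
        rw [h3, add_zero]
      rw [← h1, rowv, inner_sub_right]
      ring
    rw [e]
    exact inner_self_ne_zero.2 hw0
  · have h3 : (inner ℝ w (x - p) : ℝ) = 0 := Submodule.inner_left_of_mem_orthogonal hx hwD
    rw [rowv, ← h3, inner_sub_right]
    ring

/-- A line through two points of a sphere contains no third point of the sphere. -/
lemma notMem_line {n : ℕ} {z v p q : E n} {ρ : ℝ} (hv : dist v z = ρ) (hp : dist p z = ρ)
    (hq : dist q z = ρ) (hpv : v ≠ p) (hqv : v ≠ q) : v - p ∉ Submodule.span ℝ {q - p} := by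
  intro h
  obtain ⟨s, hs⟩ := Submodule.mem_span_singleton.1 h
  have e : ∀ x : E n, dist x z = ρ → (inner ℝ (x - z) (x - z) : ℝ) = ρ ^ 2 := by
    intro x hx
    rw [real_inner_self_eq_norm_sq, ← dist_eq_norm, hx]
  have hv' := e v hv
  have hp' := e p hp
  have hq' := e q hq
  have e1 : v - z = (p - z) + s • (q - p) := by rw [hs]; abel
  have e2 : q - z = (p - z) + (q - p) := by abel
  rw [e1, inner_add_left, inner_add_right, inner_add_right, real_inner_smul_left,
    real_inner_smul_left, real_inner_smul_right, real_inner_smul_right,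
    real_inner_comm (p - z) (q - p)] at hv'
  rw [e2, inner_add_left, inner_add_right, inner_add_right,
    real_inner_comm (p - z) (q - p)] at hq'
  have key : s * (s - 1) * (inner ℝ (q - p) (q - p) : ℝ) = 0 := by
    linear_combination hv' - (1 - s) * hp' - s * hq'
  rcases mul_eq_zero.1 key with h1 | h1
  · rcases mul_eq_zero.1 h1 with h2 | h2
    · apply hpv
      rw [h2, zero_smul] at hs
      exact (sub_eq_zero.1 hs.symm)
    · apply hqv
      have : s = 1 := by linarith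
      rw [this, one_smul] at hs
      exact (sub_left_injective hs).symm
  · rw [inner_self_eq_zero] at h1
    rw [h1, smul_zero] at hs
    exact hpv (sub_eq_zero.1 hs.symm)

/-- Product of two linear forms in the half-angle coordinates, as an affine functional. -/
noncomputable def prodRow {n : ℕ} (r : Fin 3 → E n × ℝ) (a c : ℝ × ℝ) : E n × ℝ :=
  (a.1 * c.1) • r 0 + (a.1 * c.2 + a.2 * c.1) • r 1 + (a.2 * c.2) • r 2

lemma rowv_prodRow {n : ℕ} (r : Fin 3 → E n × ℝ) (a c : ℝ × ℝ) (v : E n) (α β : ℝ)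
    (h0 : rowv (r 0) v = α ^ 2) (h1 : rowv (r 1) v = α * β) (h2 : rowv (r 2) v = β ^ 2) :
    rowv (prodRow r a c) v = (a.1 * α + a.2 * β) * (c.1 * α + c.2 * β) := by
  rw [prodRow, rowv_add, rowv_add, rowv_smul, rowv_smul, rowv_smul, h0, h1, h2]
  ring

/-- Six points of a circle: `α`, `β` are half-angle coordinates. -/
theorem signed_of_conic {n : ℕ} {A : Set (E n)} (hA : A.Finite) (f : Fin 6 → E n)
    (hfA : ∀ i, f i ∈ A) (hf : ∀ x ∈ A, ∃ i, f i = x) (hinj : Function.Injective f)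
    (α β : E n → ℝ) (r : Fin 3 → E n × ℝ) (h0 : ∀ v ∈ A, rowv (r 0) v = α v ^ 2)
    (h1 : ∀ v ∈ A, rowv (r 1) v = α v * β v) (h2 : ∀ v ∈ A, rowv (r 2) v = β v ^ 2)
    (hd : ∀ p ∈ A, ∀ q ∈ A, dist p q ^ 2 = (α p * β q - β p * α q) ^ 2) :
    HasSignedProfile A := by
  classical
  let br : Fin 6 → Fin 6 → ℝ := fun i j => α (f i) * β (f j) - β (f i) * α (f j)
  have hbr : ∀ i j, i ≠ j → br i j ≠ 0 := by
    intro i j hij h
    have h3 := hd (f i) (hfA i) (f j) (hfA j)
    have h4 : α (f i) * β (f j) - β (f i) * α (f j) = 0 := h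
    rw [h4, zero_pow two_ne_zero, pow_eq_zero_iff two_ne_zero, dist_eq_zero] at h3
    exact hij (hinj h3)
  let FA : ℝ × ℝ := (β (f 0) * br 1 2, -α (f 0) * br 1 2)
  let FB : ℝ × ℝ := (β (f 1) * br 0 2, -α (f 1) * br 0 2)
  let FC : ℝ × ℝ := (β (f 3) * br 4 5, -α (f 3) * br 4 5)
  let FD : ℝ × ℝ := (β (f 4) * br 3 5, -α (f 4) * br 3 5)
  let K : ℝ := br 0 1 * br 0 2 * br 1 2 * (br 3 4 * br 3 5 * br 4 5)
  have hK : K ≠ 0 := by
    simp only [K]
    refine mul_ne_zero (mul_ne_zero (mul_ne_zero (hbr _ _ ?_) (hbr _ _ ?_)) (hbr _ _ ?_))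
      (mul_ne_zero (mul_ne_zero (hbr _ _ ?_) (hbr _ _ ?_)) (hbr _ _ ?_)) <;> decide
  let c : ℝ := -(2 * K)⁻¹
  let y : Fin 4 → E n × ℝ := ![c • prodRow r FA FC, c • prodRow r FB FD,
    (-c) • prodRow r FA FD, (-c) • prodRow r FB FC]
  let y' : Fin 4 → E n × ℝ := ![prodRow r FB FD, prodRow r FA FC,
    prodRow r FB FC, prodRow r FA FD]
  have hval : ∀ v ∈ A, ∀ a b : ℝ × ℝ, rowv (prodRow r a b) v =
      (a.1 * α v + a.2 * β v) * (b.1 * α v + b.2 * β v) := fun v hv a b =>
    rowv_prodRow r a b v _ _ (h0 v hv) (h1 v hv) (h2 v hv)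
  refine signed_of_pairs hA y y' ?_ ?_
  · intro v hv B
    obtain ⟨i, rfl⟩ := hf v hv
    simp only [Fin.sum_univ_four, y, y', Matrix.cons_val, rowv_smul, hval _ hv]
    have key : ∀ P Q R S : ℝ, (P = 0 ∧ R = 0) ∨ (Q = 0 ∧ S = 0) ∨ (P = S ∧ Q = R) ∨
        (P = R ∧ Q = S) ∨ (P = 0 ∧ S = 0) ∨ (Q = 0 ∧ R = 0) →
        B (c * P) Q + B (c * Q) P + B (-c * R) S + B (-c * S) R = 0 := by
      intro P Q R S h
      have hneg : ∀ x y : ℝ, B (-c * x) y = -B (c * x) y := by
        intro x y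
        rw [neg_mul, map_neg, LinearMap.neg_apply]
      rw [hneg, hneg]
      rcases h with ⟨rfl, rfl⟩ | ⟨rfl, rfl⟩ | ⟨rfl, rfl⟩ | ⟨rfl, rfl⟩ | ⟨rfl, rfl⟩ | ⟨rfl, rfl⟩
      all_goals simp
    apply key
    simp only [FA, FB, FC, FD, br]
    fin_cases i
    · refine Or.inl ⟨?_, ?_⟩ <;> (simp only [Fin.zero_eta, Fin.isValue]; ring)
    · refine Or.inr (Or.inl ⟨?_, ?_⟩) <;> (simp only [Fin.mk_one, Fin.isValue]; ring)
    · refine Or.inr (Or.inr (Or.inl ⟨?_, ?_⟩)) <;> (simp only [Fin.reduceFinMk, Fin.isValue]; ring)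
    · refine Or.inr (Or.inr (Or.inr (Or.inr (Or.inl ⟨?_, ?_⟩)))) <;>
        (simp only [Fin.reduceFinMk, Fin.isValue]; ring)
    · refine Or.inr (Or.inr (Or.inr (Or.inr (Or.inr ⟨?_, ?_⟩)))) <;>
        (simp only [Fin.reduceFinMk, Fin.isValue]; ring)
    · refine Or.inr (Or.inr (Or.inr (Or.inl ⟨?_, ?_⟩))) <;>
        (simp only [Fin.reduceFinMk, Fin.isValue]; ring)
  · intro p hp q hq
    rw [hd p hp q hq]
    simp only [Fin.sum_univ_four, y, y', Matrix.cons_val, rowv_smul, hval p hp, hval q hq]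
    have hc : c * K = -(1 / 2) := by
      simp only [c]
      field_simp
    have e : ∀ a1 a2 b1 b2 c1 c2 d1 d2 P Q P' Q' : ℝ,
        c * ((a1 * P + a2 * Q) * (c1 * P + c2 * Q)) - c * ((a1 * P' + a2 * Q') *
          (c1 * P' + c2 * Q')) = c * ((a1 * P + a2 * Q) * (c1 * P + c2 * Q) -
          (a1 * P' + a2 * Q') * (c1 * P' + c2 * Q')) := by intros; ring
    have key : ∀ P Q P' Q' : ℝ, (P * Q' - Q * P') ^ 2 = -2 * (-(1 / 2)) * (P * Q' - Q * P') ^ 2 := by
      intros; ring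
    rw [key, ← hc]
    simp only [FA, FB, FC, FD, K, br]
    ring

end Vale.Agent.P058
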