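import Vale.Agent.P058.H987.Six

/-!
Every spherical set with at most six points, in any dimension, has a signed balanced profile:
the coplanar case gives six concyclic points, otherwise `signed_of_two_planes` applies.
-/

set_option autoImplicit false

open Finset

namespace Vale.Agent.P058

/-- Half-angle coordinates. -/
lemma exists_half (R a b : ℝ) (hR : 0 ≤ R) (h : a ^ 2 + b ^ 2 = R ^ 2) :
    ∃ α β : ℝ, α ^ 2 = R - a ∧ α * β = b ∧ β ^ 2 = R + a := by
  have h1 : a ≤ R := by nlinarith [sq_nonneg b]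
  have h2 : -a ≤ R := by nlinarith [sq_nonneg b]
  have h3 : (R - a) * (R + a) = b ^ 2 := by linear_combination -h
  have hX : 0 ≤ R - a := by linarith
  have hZ : 0 ≤ R + a := by linarith
  have h4 : Real.sqrt (R - a) * Real.sqrt (R + a) = |b| := by
    rw [← Real.sqrt_mul hX, h3, Real.sqrt_sq_eq_abs]
  rcases le_total 0 b with hb | hb
  · refine ⟨Real.sqrt (R - a), Real.sqrt (R + a), Real.sq_sqrt hX, ?_, Real.sq_sqrt hZ⟩
    rw [h4, abs_of_nonneg hb]
  · refine ⟨Real.sqrt (R - a), -Real.sqrt (R + a), Real.sq_sqrt hX, ?_, ?_⟩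
    · rw [mul_neg, h4, abs_of_nonpos hb, neg_neg]
    · rw [neg_sq, Real.sq_sqrt hZ]

/-- Six points of a circle in a plane of `ℝ^n`. -/
theorem signed_of_coplanar_six {n : ℕ} {A : Set (E n)} (hA : A.Finite) (f : Fin 6 → E n)
    (hfA : ∀ i, f i ∈ A) (hf : ∀ x ∈ A, ∃ i, f i = x) (hinj : Function.Injective f)
    (z : E n) (ρ : ℝ) (hS : ∀ x ∈ A, dist x z = ρ) (p e₁ e₂ : E n)
    (h11 : (inner ℝ e₁ e₁ : ℝ) = 1) (h22 : (inner ℝ e₂ e₂ : ℝ) = 1)
    (h12 : (inner ℝ e₁ e₂ : ℝ) = 0)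
    (hP : ∀ x ∈ A, x - p = (inner ℝ e₁ (x - p) : ℝ) • e₁ + (inner ℝ e₂ (x - p) : ℝ) • e₂) :
    HasSignedProfile A := by
  classical
  have h21 : (inner ℝ e₂ e₁ : ℝ) = 0 := by rw [real_inner_comm]; exact h12
  set c₁ : ℝ := inner ℝ e₁ (z - p) with hc₁
  set c₂ : ℝ := inner ℝ e₂ (z - p) with hc₂
  let a : E n → ℝ := fun x => inner ℝ e₁ (x - p) - c₁
  let b : E n → ℝ := fun x => inner ℝ e₂ (x - p) - c₂
  set N : ℝ := ρ ^ 2 - (inner ℝ (z - p) (z - p) : ℝ) + c₁ ^ 2 + c₂ ^ 2 with hN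
  have hcirc : ∀ x ∈ A, a x ^ 2 + b x ^ 2 = N := by
    intro x hx
    have h1 : (inner ℝ (x - z) (x - z) : ℝ) = ρ ^ 2 := by
      rw [real_inner_self_eq_norm_sq, ← dist_eq_norm, hS x hx]
    have h2 : x - z = (x - p) - (z - p) := by abel
    have h3 : (inner ℝ (x - p) (x - p) : ℝ) =
        (inner ℝ e₁ (x - p) : ℝ) ^ 2 + (inner ℝ e₂ (x - p) : ℝ) ^ 2 := by
      conv_lhs => rw [hP x hx]
      simp only [inner_add_left, inner_add_right, real_inner_smul_left, real_inner_smul_right,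
        h11, h22, h12, h21]
      ring
    have h4 : (inner ℝ (x - p) (z - p) : ℝ) =
        (inner ℝ e₁ (x - p) : ℝ) * c₁ + (inner ℝ e₂ (x - p) : ℝ) * c₂ := by
      conv_lhs => rw [hP x hx]
      simp only [inner_add_left, real_inner_smul_left]
      rw [hc₁, hc₂]
    have h5 : ∀ u w : E n, (inner ℝ (u - w) (u - w) : ℝ) =
        inner ℝ u u - 2 * inner ℝ u w + inner ℝ w w := by
      intro u w
      rw [inner_sub_left, inner_sub_right, inner_sub_right, real_inner_comm u w]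
      ring
    rw [h2, h5, h3, h4] at h1
    simp only [a, b]
    rw [hN]
    linear_combination h1
  have hdist : ∀ x ∈ A, ∀ y ∈ A, dist x y ^ 2 = (a x - a y) ^ 2 + (b x - b y) ^ 2 := by
    intro x hx y hy
    have h2 : x - y = (a x - a y) • e₁ + (b x - b y) • e₂ := by
      have h3 : x - y = (x - p) - (y - p) := by abel
      rw [h3]
      conv_lhs => rw [hP x hx, hP y hy]
      simp only [a, b]
      module
    rw [dist_eq_norm, ← real_inner_self_eq_norm_sq, h2]
    simp only [inner_add_left, inner_add_right, real_inner_smul_left, real_inner_smul_right,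
      h11, h22, h12, h21]
    ring
  have hN0 : 0 ≤ N := by
    rw [← hcirc (f 0) (hfA 0)]
    positivity
  set R : ℝ := Real.sqrt N with hR
  have hR2 : R ^ 2 = N := Real.sq_sqrt hN0
  have hhalf : ∀ x : E n, ∃ α β : ℝ, x ∈ A → α ^ 2 = R - a x ∧ α * β = b x ∧ β ^ 2 = R + a x := by
    intro x
    by_cases hx : x ∈ A
    · obtain ⟨α, β, h1, h2, h3⟩ := exists_half R (a x) (b x) (Real.sqrt_nonneg _)
        (by rw [hR2, hcirc x hx])
      exact ⟨α, β, fun _ => ⟨h1, h2, h3⟩⟩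
    · exact ⟨0, 0, fun h => absurd h hx⟩
  choose α β hαβ using hhalf
  let r : Fin 3 → E n × ℝ := ![(-e₁, R + inner ℝ e₁ p + c₁), (e₂, -inner ℝ e₂ p - c₂),
    (e₁, R - inner ℝ e₁ p - c₁)]
  refine signed_of_conic hA f hfA hf hinj α β r ?_ ?_ ?_ ?_
  · intro v hv
    rw [(hαβ v hv).1]
    simp only [r, Matrix.cons_val, rowv, inner_neg_left, a, inner_sub_right]
    ring
  · intro v hv
    rw [(hαβ v hv).2.1]
    simp only [r, Matrix.cons_val, rowv, b, inner_sub_right]
    ring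
  · intro v hv
    rw [(hαβ v hv).2.2]
    simp only [r, Matrix.cons_val, rowv, a, inner_sub_right]
    ring
  · intro x hx y hy
    obtain ⟨hx1, hx2, hx3⟩ := hαβ x hx
    obtain ⟨hy1, hy2, hy3⟩ := hαβ y hy
    have e : (α x * β y - β x * α y) ^ 2 =
        α x ^ 2 * β y ^ 2 + β x ^ 2 * α y ^ 2 - 2 * (α x * β x) * (α y * β y) := by ring
    rw [hdist x hx y hy, e, hx1, hx2, hx3, hy1, hy2, hy3]
    linear_combination hcirc x hx + hcirc y hy - 2 * hR2

/-- **Spherical sets with at most six points have a signed balanced profile.** -/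
theorem signed_of_card_le_six {n : ℕ} {A : Set (E n)} (hA : A.Finite) (hc : A.ncard ≤ 6)
    (z : E n) (ρ : ℝ) (hS : ∀ x ∈ A, dist x z = ρ) : HasSignedProfile A := by
  classical
  by_cases hsep : ∀ v ∈ A, ∃ u w : E n × ℝ, rowv u v ≠ 0 ∧ rowv w v ≠ 0 ∧
      ∀ x ∈ A, x ≠ v → rowv u x = 0 ∨ rowv w x = 0
  · exact signed_of_two_planes hA z ρ hS hsep
  push Not at hsep
  obtain ⟨v, hv, hno⟩ := hsep
  -- a row vanishing at two given points
  have hpair : ∀ p ∈ A, ∀ q ∈ A, p ≠ v → q ≠ v →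
      ∃ u : E n × ℝ, rowv u v ≠ 0 ∧ rowv u p = 0 ∧ rowv u q = 0 := by
    intro p hp q hq hpv hqv
    obtain ⟨u, hu1, hu2⟩ := exists_row_of_notMem p v (Submodule.span ℝ {q - p})
      (notMem_line (hS v hv) (hS p hp) (hS q hq) hpv.symm hqv.symm)
    exact ⟨u, hu1, hu2 p (by rw [sub_self]; exact Submodule.zero_mem _),
      hu2 q (Submodule.subset_span rfl)⟩
  -- the other points
  have hfin : (A \ {v}).Finite := hA.subset Set.sdiff_subset
  have hcard : (A \ {v}).ncard = 5 := by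
    by_contra hne
    have hle : (A \ {v}).ncard ≤ 4 := by
      have : (A \ {v}).ncard ≤ 5 := by
        rw [Set.ncard_sdiff_singleton_of_mem hv]
        omega
      omega
    rcases (A \ {v}).eq_empty_or_nonempty with he | ⟨y, hy⟩
    · obtain ⟨x, hx, hxv, _⟩ := hno (0, 1) (0, 1) (by simp [rowv]) (by simp [rowv])
      have : x ∈ A \ {v} := ⟨hx, hxv⟩
      rw [he] at this
      exact this
    · obtain ⟨f, hf1, hf2⟩ : ∃ f : Fin 4 → E n, (∀ i, f i ∈ A \ {v}) ∧
          ∀ x ∈ A \ {v}, ∃ i, f i = x := by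
        have : Fintype ↥(A \ {v}) := hfin.fintype
        have h1 : Fintype.card ↥(A \ {v}) ≤ Fintype.card (Fin 4) := by
          rw [Fintype.card_fin, ← Nat.card_eq_fintype_card]
          exact hle
        have : Nonempty ↥(A \ {v}) := ⟨⟨y, hy⟩⟩
        obtain ⟨g⟩ := Function.Embedding.nonempty_of_card_le h1
        refine ⟨fun i => (Function.invFun g i).1, fun i => (Function.invFun g i).2,
          fun x hx => ⟨g ⟨x, hx⟩, ?_⟩⟩
        show (Function.invFun g (g ⟨x, hx⟩)).1 = x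
        rw [Function.leftInverse_invFun g.injective]
      obtain ⟨u, hu, hu0, hu1⟩ := hpair (f 0) (hf1 0).1 (f 1) (hf1 1).1 (hf1 0).2 (hf1 1).2
      obtain ⟨w, hw, hw0, hw1⟩ := hpair (f 2) (hf1 2).1 (f 3) (hf1 3).1 (hf1 2).2 (hf1 3).2
      obtain ⟨x, hx, hxv, hxu, hxw⟩ := hno u w hu hw
      obtain ⟨i, rfl⟩ := hf2 x ⟨hx, hxv⟩
      fin_cases i
      · exact hxu hu0
      · exact hxu hu1
      · exact hxw hw0
      · exact hxw hw1
  obtain ⟨f, hf1, hf2, hf3⟩ : ∃ f : Fin 5 → E n, (∀ i, f i ∈ A \ {v}) ∧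
      (∀ x ∈ A \ {v}, ∃ i, f i = x) ∧ Function.Injective f := by
    have : Fintype ↥(A \ {v}) := hfin.fintype
    have h1 : Fintype.card ↥(A \ {v}) = Fintype.card (Fin 5) := by
      rw [Fintype.card_fin, ← Nat.card_eq_fintype_card]
      exact hcard
    let g := (Fintype.equivOfCardEq h1).symm
    exact ⟨fun i => (g i).1, fun i => (g i).2, fun x hx => ⟨g.symm ⟨x, hx⟩, by simp⟩,
      fun i j hij => g.injective (Subtype.ext hij)⟩
  -- all triples are coplanar with `v`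
  have htrip : ∀ i j k l m : Fin 5, (∀ s : Fin 5, s = i ∨ s = j ∨ s = k ∨ s = l ∨ s = m) →
      v - f i ∈ Submodule.span ℝ {f j - f i, f k - f i} := by
    intro i j k l m hall
    by_contra hnot
    obtain ⟨u, hu1, hu2⟩ := exists_row_of_notMem (f i) v _ hnot
    obtain ⟨w, hw, hw0, hw1⟩ := hpair (f l) (hf1 l).1 (f m) (hf1 m).1 (hf1 l).2 (hf1 m).2
    obtain ⟨x, hx, hxv, hxu, hxw⟩ := hno u w hu1 hw
    obtain ⟨s, rfl⟩ := hf2 x ⟨hx, hxv⟩
    rcases hall s with rfl | rfl | rfl | rfl | rfl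
    · exact hxu (hu2 _ (by rw [sub_self]; exact Submodule.zero_mem _))
    · exact hxu (hu2 _ (Submodule.subset_span (Set.mem_insert _ _)))
    · exact hxu (hu2 _ (Submodule.subset_span (Set.mem_insert_of_mem _ rfl)))
    · exact hxw hw0
    · exact hxw hw1
  set p := f 0 with hp
  set q := f 1 with hq
  have hline : v - p ∉ Submodule.span ℝ {q - p} :=
    notMem_line (hS v hv) (hS p (hf1 0).1) (hS q (hf1 1).1) (fun h => (hf1 0).2 h.symm)
      (fun h => (hf1 1).2 h.symm)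
  set D : Submodule ℝ (E n) := Submodule.span ℝ {q - p, v - p} with hD
  have hexch : ∀ x : E n, v - p ∈ Submodule.span ℝ {q - p, x - p} → x - p ∈ D := by
    intro x hx
    have h1 : v - p ∈ Submodule.span ℝ (insert (x - p) {q - p}) := by
      rwa [Set.pair_comm] at hx
    have h2 := mem_span_insert_exchange h1 hline
    rw [hD, Set.pair_comm]
    exact h2
  have hAD : ∀ x ∈ A, x - p ∈ D := by
    intro x hx
    by_cases hxv : x = v
    · rw [hxv]
      exact Submodule.subset_span (Set.mem_insert_of_mem _ rfl)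
    · obtain ⟨i, rfl⟩ := hf2 x ⟨hx, hxv⟩
      fin_cases i
      · show f 0 - p ∈ D
        rw [← hp, sub_self]
        exact Submodule.zero_mem _
      · exact Submodule.subset_span (Set.mem_insert _ _)
      · exact hexch _ (htrip 0 1 2 3 4 (by decide))
      · exact hexch _ (htrip 0 1 3 2 4 (by decide))
      · exact hexch _ (htrip 0 1 4 2 3 (by decide))
  -- an orthonormal basis
  have hq0 : q - p ≠ 0 := by
    intro h
    have : f 1 = f 0 := sub_eq_zero.1 h
    exact absurd (hf3 this) (by decide)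
  set e₁ : E n := ‖q - p‖⁻¹ • (q - p) with he₁
  have hnq : ‖q - p‖ ≠ 0 := norm_ne_zero_iff.2 hq0
  have h11 : (inner ℝ e₁ e₁ : ℝ) = 1 := by
    rw [he₁, real_inner_smul_left, real_inner_smul_right, real_inner_self_eq_norm_sq]
    field_simp
  set w : E n := (v - p) - (inner ℝ e₁ (v - p) : ℝ) • e₁ with hw
  have hw0 : w ≠ 0 := by
    intro h
    apply hline
    rw [hw, sub_eq_zero] at h
    rw [h, he₁, smul_smul]
    exact Submodule.smul_mem _ _ (Submodule.subset_span rfl)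
  have hnw : ‖w‖ ≠ 0 := norm_ne_zero_iff.2 hw0
  set e₂ : E n := ‖w‖⁻¹ • w with he₂
  have h22 : (inner ℝ e₂ e₂ : ℝ) = 1 := by
    rw [he₂, real_inner_smul_left, real_inner_smul_right, real_inner_self_eq_norm_sq]
    field_simp
  have h12 : (inner ℝ e₁ e₂ : ℝ) = 0 := by
    have h3 : ∀ c : ℝ, ∀ y : E n, (inner ℝ e₁ (y - c • e₁) : ℝ) = inner ℝ e₁ y - c := by
      intro c y
      rw [inner_sub_right, real_inner_smul_right, h11, mul_one]
    rw [he₂, real_inner_smul_right, hw, h3, sub_self, mul_zero]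
  have h21 : (inner ℝ e₂ e₁ : ℝ) = 0 := by rw [real_inner_comm]; exact h12
  have hDe : ∀ x ∈ D, x = (inner ℝ e₁ x : ℝ) • e₁ + (inner ℝ e₂ x : ℝ) • e₂ := by
    intro x hx
    have hq' : q - p = ‖q - p‖ • e₁ := by
      rw [he₁, smul_smul, mul_inv_cancel₀ hnq, one_smul]
    have hv' : v - p = (inner ℝ e₁ (v - p) : ℝ) • e₁ + ‖w‖ • e₂ := by
      have h3 : ‖w‖ • e₂ = w := by rw [he₂, smul_smul, mul_inv_cancel₀ hnw, one_smul]
      rw [h3, hw]
      abel
    obtain ⟨s, t, rfl⟩ := Submodule.mem_span_pair.1 hx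
    have h3 : ∃ a b : ℝ, s • (q - p) + t • (v - p) = a • e₁ + b • e₂ := by
      refine ⟨s * ‖q - p‖ + t * (inner ℝ e₁ (v - p) : ℝ), t * ‖w‖, ?_⟩
      conv_lhs => rw [hq', hv']
      module
    obtain ⟨a, b, hab⟩ := h3
    rw [hab]
    simp only [inner_add_right, real_inner_smul_right, h11, h22, h12, h21]
    simp
  obtain ⟨g, hg1, hg2, hg3⟩ : ∃ g : Fin 6 → E n, (∀ i, g i ∈ A) ∧ (∀ x ∈ A, ∃ i, g i = x) ∧
      Function.Injective g := by
    refine ⟨Fin.cons v f, ?_, ?_, ?_⟩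
    · intro i
      refine Fin.cases ?_ (fun j => ?_) i
      · exact hv
      · exact (hf1 j).1
    · intro x hx
      by_cases hxv : x = v
      · exact ⟨0, hxv.symm⟩
      · obtain ⟨i, hi⟩ := hf2 x ⟨hx, hxv⟩
        exact ⟨i.succ, hi⟩
    · rw [Fin.cons_injective_iff]
      refine ⟨?_, hf3⟩
      rintro ⟨i, hi⟩
      exact (hf1 i).2 hi
  exact signed_of_coplanar_six hA g hg1 hg2 hg3 z ρ hS p e₁ e₂ h11 h22 h12
    fun x hx => hDe _ (hAD x hx)

end Vale.Agent.P058
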